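import Vale.Agent.P184.H70.Lit

/-! [K1]: conditionally negative definite kernels (realization, Schoenberg, the Bernstein function
`gg`). -/

namespace Vale.Agent.P184.H236

open Vale.Agent.P184.H70 Matrix
open scoped InnerProductSpace

universe u v

/-- elementary criterion for positive semidefiniteness -/
theorem psd_of {X : Type*} {k : Matrix X X ℝ} (hs : ∀ p q, k p q = k q p)
    (h : ∀ (s : Finset X) (c : X → ℝ), 0 ≤ ∑ p ∈ s, ∑ q ∈ s, c p * c q * k p q) :
    k.PosSemidef := by
  refine ⟨?_, fun x => ?_⟩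
  · ext p q; simp [hs q p]
  · have := h x.support x
    refine this.trans (le_of_eq ?_)
    simp only [Finsupp.sum, star_trivial]
    exact Finset.sum_congr rfl fun p _ => Finset.sum_congr rfl fun q _ => by ring

/-- the elementary form of positive semidefiniteness -/
theorem sum_nonneg_of_psd {X : Type*} {k : Matrix X X ℝ} (h : k.PosSemidef) (s : Finset X)
    (c : X → ℝ) : 0 ≤ ∑ p ∈ s, ∑ q ∈ s, c p * c q * k p q := by
  classical
  have := h.2 (Finsupp.onFinset s (fun p => if p ∈ s then c p else 0) (by simp; tauto))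
  refine this.trans (le_of_eq ?_)
  rw [Finsupp.onFinset_sum _ (by simp)]
  refine Finset.sum_congr rfl fun p hp => ?_
  rw [Finsupp.onFinset_sum _ (by simp)]
  refine Finset.sum_congr rfl fun q hq => ?_
  simp [hp, hq]; ring

/-- a positive semidefinite kernel comes from a map into a Hilbert space -/
theorem exists_map {X : Type u} {k : Matrix X X ℝ} (hk : k.PosSemidef) :
    ∃ (E : Type u) (_ : NormedAddCommGroup E) (_ : InnerProductSpace ℝ E) (f : X → E),
      ∀ p q, ⟪f p, f q⟫_ℝ = k p q := by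
  let core : PreInnerProductSpace.Core ℝ (X →₀ ℝ) :=
    { inner := fun f g => f.sum fun p a => g.sum fun q b => a * k p q * b
      conj_inner_symm := fun f g => by
        simp only [conj_trivial]
        rw [Finsupp.sum_comm]
        refine Finset.sum_congr rfl fun p _ => Finset.sum_congr rfl fun q _ => ?_
        have : k q p = k p q := by simpa using hk.1.apply p q
        simp only [this]; ring
      re_inner_nonneg := fun f => by
        have := hk.2 f
        simpa using this
      add_left := fun f g h => by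
        rw [Finsupp.sum_add_index'] <;> simp [← Finsupp.sum_add, add_mul]
      smul_left := fun f g r => by
        rw [Finsupp.sum_smul_index] <;> simp [Finsupp.mul_sum, ← mul_assoc] }
  let _ : SeminormedAddCommGroup (X →₀ ℝ) :=
    InnerProductSpace.Core.toSeminormedAddCommGroup (𝕜 := ℝ) (c := core)
  let _ : InnerProductSpace ℝ (X →₀ ℝ) := InnerProductSpace.ofCore core
  refine ⟨UniformSpace.Completion (X →₀ ℝ), inferInstance, inferInstance,
    fun p => ((Finsupp.single p (1 : ℝ) : X →₀ ℝ) : UniformSpace.Completion (X →₀ ℝ)),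
    fun p q => ?_⟩
  rw [UniformSpace.Completion.inner_coe]
  change (Finsupp.single p (1 : ℝ)).sum (fun p a => (Finsupp.single q (1 : ℝ)).sum
    fun q b => a * k p q * b) = k p q
  simp

/-- the kernel with base point -/
noncomputable def bk {X : Type*} (ψ : X → X → ℝ) (o : X) : Matrix X X ℝ :=
  fun p q => (ψ p o + ψ q o - ψ p q) / 2

theorem bk_psd {X : Type*} {ψ : X → X → ℝ} (h : CNDKer ψ) (o : X) : (bk ψ o).PosSemidef := by
  classical
  obtain ⟨h1, h2, h3⟩ := h
  refine psd_of (fun p q => by simp only [bk, h1 p q]; ring) fun s c => ?_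
  set S := ∑ p ∈ s, c p with hS
  set c' : X → ℝ := fun p => (if p ∈ s then c p else 0) - (if p = o then S else 0) with hc'
  have key : ∀ g : X → ℝ, ∑ p ∈ insert o s, c' p * g p = ∑ p ∈ s, c p * g p - S * g o := by
    intro g
    simp only [hc', sub_mul, Finset.sum_sub_distrib]
    congr 1
    · rw [← Finset.sum_subset (Finset.subset_insert o s)]
      · exact Finset.sum_congr rfl fun p hp => by simp [hp]
      · intro p _ hp; simp [hp]
    · simp [ite_mul]
  have h0 : ∑ p ∈ insert o s, c' p = 0 := by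
    have := key fun _ => 1
    simp only [mul_one] at this
    rw [this, hS]; ring
  have := h3 (insert o s) c' h0
  have e : ∑ p ∈ insert o s, ∑ q ∈ insert o s, c' p * c' q * ψ p q =
      -2 * ∑ p ∈ s, ∑ q ∈ s, c p * c q * bk ψ o p q := by
    have e1 : ∀ p, ∑ q ∈ insert o s, c' p * c' q * ψ p q =
        c' p * (∑ q ∈ s, c q * ψ p q - S * ψ p o) := by
      intro p
      rw [← key, Finset.mul_sum]
      exact Finset.sum_congr rfl fun q _ => by ring
    simp only [e1]
    rw [key]
    have e2 : ∀ p, ∑ q ∈ s, c p * c q * bk ψ o p q =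
        c p * ((S * ψ p o + ∑ q ∈ s, c q * ψ q o - ∑ q ∈ s, c q * ψ p q) / 2) := by
      intro p
      rw [hS, Finset.sum_mul, ← Finset.sum_add_distrib, ← Finset.sum_sub_distrib, Finset.sum_div,
        Finset.mul_sum]
      exact Finset.sum_congr rfl fun q _ => by simp only [bk]; ring
    simp only [e2]
    have e3 : ∑ p ∈ s, c p * ((S * ψ p o + ∑ q ∈ s, c q * ψ q o - ∑ q ∈ s, c q * ψ p q) / 2) =
        (S * ∑ p ∈ s, c p * ψ p o + S * ∑ q ∈ s, c q * ψ q o -
          ∑ p ∈ s, c p * ∑ q ∈ s, c q * ψ p q) / 2 := by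
      have e6 : ∀ p, c p * ((S * ψ p o + ∑ q ∈ s, c q * ψ q o - ∑ q ∈ s, c q * ψ p q) / 2) =
          S / 2 * (c p * ψ p o) + c p * ((∑ q ∈ s, c q * ψ q o) / 2) -
            1 / 2 * (c p * ∑ q ∈ s, c q * ψ p q) := fun p => by ring
      simp only [e6]
      rw [Finset.sum_sub_distrib, Finset.sum_add_distrib, ← Finset.mul_sum, ← Finset.sum_mul,
        ← Finset.mul_sum, ← hS]
      ring
    rw [e3]
    have e4 : ∑ p ∈ s, c p * (∑ q ∈ s, c q * ψ p q - S * ψ p o) =
        ∑ p ∈ s, c p * ∑ q ∈ s, c q * ψ p q - S * ∑ p ∈ s, c p * ψ p o := by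
      rw [Finset.mul_sum, ← Finset.sum_sub_distrib]
      exact Finset.sum_congr rfl fun q _ => by ring
    rw [e4, h2]
    have e5 : ∑ q ∈ s, c q * ψ o q = ∑ q ∈ s, c q * ψ q o :=
      Finset.sum_congr rfl fun q _ => by rw [h1]
    rw [e5]; ring
  rw [e] at this
  linarith

/-- [KER1a] -/
theorem realize : RealizeStmt.{u} := by
  intro X ψ h
  rcases isEmpty_or_nonempty X with hX | ⟨⟨o⟩⟩
  · obtain ⟨E, i1, i2, f, -⟩ := exists_map (k := (0 : Matrix X X ℝ)) Matrix.PosSemidef.zero
    exact ⟨E, i1, i2, f, fun p => isEmptyElim p⟩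
  · obtain ⟨E, i1, i2, f, hf⟩ := exists_map (bk_psd h o)
    refine ⟨E, i1, i2, f, fun p q => ?_⟩
    rw [@norm_sub_sq_real, ← real_inner_self_eq_norm_sq, ← real_inner_self_eq_norm_sq, hf, hf, hf]
    simp only [bk, h.2.1]; ring

/-- Schoenberg -/
theorem exp_psd {X : Type*} {ψ : X → X → ℝ} (h : CNDKer ψ) {t : ℝ} (ht : 0 ≤ t) (s : Finset X)
    (c : X → ℝ) : 0 ≤ ∑ p ∈ s, ∑ q ∈ s, c p * c q * Real.exp (-(t * ψ p q)) := by
  rcases isEmpty_or_nonempty X with hX | ⟨⟨o⟩⟩
  · rw [Finset.sum_of_isEmpty]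
  have hk := bk_psd h o
  have hpow : ∀ n : ℕ, (Matrix.of fun p q => (bk ψ o p q) ^ n : Matrix X X ℝ).PosSemidef := by
    intro n
    induction n with
    | zero =>
      refine psd_of (fun p q => by simp) fun s c => ?_
      have : ∑ p ∈ s, ∑ q ∈ s, c p * c q * (Matrix.of fun p q => (bk ψ o p q) ^ 0 : Matrix X X ℝ) p q
          = (∑ p ∈ s, c p) ^ 2 := by
        rw [sq, Finset.sum_mul_sum]
        simp
      rw [this]; positivity
    | succ n ih =>
      have := ih.hadamard hk
      refine (congrArg Matrix.PosSemidef ?_).mp this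
      ext p q
      simp [Matrix.hadamard_apply, pow_succ]
  set d : X → ℝ := fun p => c p * Real.exp (-(t * ψ p o)) with hd
  have e1 : ∀ p q, c p * c q * Real.exp (-(t * ψ p q)) =
      d p * d q * Real.exp (2 * t * bk ψ o p q) := by
    intro p q
    have : Real.exp (-(t * ψ p q)) = Real.exp (-(t * ψ p o)) * Real.exp (-(t * ψ q o)) *
        Real.exp (2 * t * bk ψ o p q) := by
      rw [← Real.exp_add, ← Real.exp_add]
      congr 1
      simp only [bk]; ring
    rw [this]; simp only [hd]; ring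
  simp only [e1]
  have hs : HasSum (fun n : ℕ => ∑ p ∈ s, ∑ q ∈ s, d p * d q *
      ((2 * t * bk ψ o p q) ^ n / n.factorial))
      (∑ p ∈ s, ∑ q ∈ s, d p * d q * Real.exp (2 * t * bk ψ o p q)) := by
    refine hasSum_sum fun p _ => hasSum_sum fun q _ => HasSum.mul_left _ ?_
    have := NormedSpace.expSeries_div_hasSum_exp (2 * t * bk ψ o p q)
    rwa [← Real.exp_eq_exp_ℝ] at this
  refine hs.nonneg fun n => ?_
  have e2 : ∑ p ∈ s, ∑ q ∈ s, d p * d q * ((2 * t * bk ψ o p q) ^ n / n.factorial) =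
      (2 * t) ^ n / n.factorial * ∑ p ∈ s, ∑ q ∈ s, d p * d q * (bk ψ o p q) ^ n := by
    rw [Finset.mul_sum]
    refine Finset.sum_congr rfl fun p _ => ?_
    rw [Finset.mul_sum]
    exact Finset.sum_congr rfl fun q _ => by rw [mul_pow]; ring
  rw [e2]
  refine mul_nonneg (by positivity) ?_
  exact sum_nonneg_of_psd (hpow n) s d

/-! the Bernstein function -/

theorem gg_summable {s : ℝ} (hs : 0 ≤ s) : Summable fun m : ℕ => (1 - Real.exp (-(s / 4 ^ m))) := by
  refine Summable.of_nonneg_of_le (fun m => ?_) (fun m => ?_)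
    ((summable_geometric_of_lt_one (r := (1 / 4 : ℝ)) (by norm_num) (by norm_num)).mul_left s)
  · have : Real.exp (-(s / 4 ^ m)) ≤ 1 := Real.exp_le_one_iff.mpr (by
      have : 0 ≤ s / 4 ^ m := by positivity
      linarith)
    linarith
  · have := Real.add_one_le_exp (-(s / 4 ^ m))
    have e : s * (1 / 4 : ℝ) ^ m = s / 4 ^ m := by rw [one_div, inv_pow]; rfl
    rw [e]; linarith

theorem gg_term_nonneg {s : ℝ} (hs : 0 ≤ s) (m : ℕ) : 0 ≤ 1 - Real.exp (-(s / 4 ^ m)) := by
  have : Real.exp (-(s / 4 ^ m)) ≤ 1 := Real.exp_le_one_iff.mpr (by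
    have : 0 ≤ s / 4 ^ m := by positivity
    linarith)
  linarith

theorem ggStmt : GGStmt := by
  refine ⟨fun s hs => ⟨tsum_nonneg fun m => gg_term_nonneg hs m, ?_, ?_⟩, ?_, ?_⟩
  · have h1 : gg s ≤ ∑' m : ℕ, s * (1 / 4 : ℝ) ^ m := by
      refine (gg_summable hs).tsum_le_tsum (fun m => ?_)
        ((summable_geometric_of_lt_one (r := (1 / 4 : ℝ)) (by norm_num) (by norm_num)).mul_left s)
      have := Real.add_one_le_exp (-(s / 4 ^ m))
      have e : s * (1 / 4 : ℝ) ^ m = s / 4 ^ m := by rw [one_div, inv_pow]; rfl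
      rw [e]; linarith
    rw [tsum_mul_left, tsum_geometric_of_lt_one (by norm_num) (by norm_num)] at h1
    norm_num at h1
    linarith
  · have h4 : (0 : ℝ) ≤ 4 * s := by positivity
    unfold gg
    rw [(gg_summable h4).tsum_eq_zero_add]
    have e : ∀ m : ℕ, 4 * s / 4 ^ (m + 1) = s / 4 ^ m := by
      intro m; rw [pow_succ]; field_simp
    simp only [e]
    have := Real.exp_pos (-(4 * s / 4 ^ 0))
    linarith
  · intro s t hs hst
    refine (gg_summable hs).tsum_le_tsum (fun m => ?_) (gg_summable (hs.trans hst))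
    have : Real.exp (-(t / 4 ^ m)) ≤ Real.exp (-(s / 4 ^ m)) := by
      apply Real.exp_le_exp.mpr
      have : s / 4 ^ m ≤ t / 4 ^ m := by gcongr
      linarith
    linarith
  · intro M s hs
    have hs0 : 0 ≤ s := le_trans (by positivity) hs
    have h1 : ∑ m ∈ Finset.range (2 * M ^ 2), (1 / 2 : ℝ) ≤
        ∑ m ∈ Finset.range (2 * M ^ 2), (1 - Real.exp (-(s / 4 ^ m))) := by
      refine Finset.sum_le_sum fun m hm => ?_
      have hm' : m ≤ 2 * M ^ 2 := (Finset.mem_range.mp hm).le
      have h2 : (1 : ℝ) ≤ s / 4 ^ m := by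
        rw [le_div_iff₀ (by positivity), one_mul]
        refine le_trans ?_ hs
        exact pow_le_pow_right₀ (by norm_num) hm'
      have h3 : Real.exp (-(s / 4 ^ m)) ≤ Real.exp (-1) := Real.exp_le_exp.mpr (by linarith)
      have h4 : Real.exp (-1) ≤ 1 / 2 := by
        rw [Real.exp_neg, one_div]
        apply inv_anti₀ (by norm_num)
        have := Real.add_one_le_exp (1 : ℝ)
        linarith
      linarith
    have h5 : ∑ m ∈ Finset.range (2 * M ^ 2), (1 - Real.exp (-(s / 4 ^ m))) ≤ gg s :=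
      (gg_summable hs0).sum_le_tsum _ fun m _ => gg_term_nonneg hs0 m
    have h6 : ∑ m ∈ Finset.range (2 * M ^ 2), (1 / 2 : ℝ) = (M : ℝ) ^ 2 := by
      simp; ring
    linarith

theorem cnd_nonneg {X : Type*} {ψ : X → X → ℝ} (h : CNDKer ψ) (p q : X) : 0 ≤ ψ p q := by
  classical
  obtain ⟨h1, h2, h3⟩ := h
  by_cases hpq : p = q
  · rw [hpq, h2]
  · have := h3 {p, q} (fun x => if x = p then 1 else -1) (by
      rw [Finset.sum_pair hpq]; simp [Ne.symm hpq])
    rw [Finset.sum_pair hpq, Finset.sum_pair hpq, Finset.sum_pair hpq] at this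
    simp only [Ne.symm hpq, if_true, if_false, h2, h1 q p] at this
    linarith

theorem ggKer : GGKerStmt.{u} := by
  intro X ψ h
  have hpos := cnd_nonneg h
  refine ⟨fun p q => congrArg gg (h.1 p q), fun p => ?_, fun s c hc => ?_⟩
  · simp [h.2.1, gg]
  · have hs : HasSum (fun m : ℕ => ∑ p ∈ s, ∑ q ∈ s, c p * c q *
        (1 - Real.exp (-(ψ p q / 4 ^ m)))) (∑ p ∈ s, ∑ q ∈ s, c p * c q * gg (ψ p q)) :=
      hasSum_sum fun p _ => hasSum_sum fun q _ => HasSum.mul_left _
        (gg_summable (hpos p q)).hasSum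
    refine hasSum_le (fun m => ?_) hs (hasSum_zero : HasSum (fun _ : ℕ => (0 : ℝ)) 0)
    have := exp_psd h (t := 1 / 4 ^ m) (by positivity) s c
    have e : ∑ p ∈ s, ∑ q ∈ s, c p * c q * (1 - Real.exp (-(ψ p q / 4 ^ m))) =
        (∑ p ∈ s, c p) * (∑ p ∈ s, c p) -
          ∑ p ∈ s, ∑ q ∈ s, c p * c q * Real.exp (-(1 / 4 ^ m * ψ p q)) := by
      rw [Finset.sum_mul_sum, ← Finset.sum_sub_distrib]
      refine Finset.sum_congr rfl fun p _ => ?_
      rw [← Finset.sum_sub_distrib]
      refine Finset.sum_congr rfl fun q _ => ?_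
      rw [show 1 / 4 ^ m * ψ p q = ψ p q / 4 ^ m by ring]; ring
    rw [e, hc]
    linarith

end Vale.Agent.P184.H236
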