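import Vale.Agent.P184.H70.Lit
import Vale.Agent.P184.H70.Lit2

/-! [MAIN] from the analytic theorem, [KER] and [CORE]. -/

namespace Vale.Agent.P184.H236

open Vale.Agent.P184.Un Vale.Agent.P184.H70

universe u w

theorem coAmen_mono {G : Type*} [Group G] {C D D' : Subgroup G} (h : D ≤ D')
    (hC : CoAmenable C D) : CoAmenable C D' := by
  obtain ⟨m, h1, h2, h3, h4⟩ := hC
  have hb : ∀ f : G → ℝ, BddInv C D' f → BddInv C D f := fun f hf =>
    ⟨hf.1, fun d hd c hc => hf.2 d (h hd) c hc⟩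
  exact ⟨m, fun f g hf hg => h1 f g (hb f hf) (hb g hg), fun f hf h0 => h2 f (hb f hf) h0, h3,
    fun f hf k hk => h4 f (hb f hf) k hk⟩

theorem self_mem_cen {G : Type*} [Group G] (x : G) : x ∈ Cen x := by
  rw [Cen, Subgroup.mem_centralizer_iff]
  intro h hh
  rw [Set.mem_singleton_iff] at hh
  rw [hh]

theorem comm_of_mem_cen {G : Type*} [Group G] {x c : G} (h : c ∈ Cen x) : c * x = x * c := by
  rw [Cen, Subgroup.mem_centralizer_iff] at h
  exact (h x rfl).symm

/-- the powers of a scalar along the powers of `x` -/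
theorem equi_zpow {G : Type*} [Group G] {x : G} {n : ℕ} {ζ : Fin n → ℂ} {u : G → Fin n → ℂ}
    {E : Set G} (h1 : ∀ j, ‖ζ j‖ = 1)
    (h : ∀ p, p⁻¹ * x * p ∈ E → ∀ j, u (x * p) j = ζ j * u p j) (k : ℤ) (p : G)
    (hp : p⁻¹ * x * p ∈ E) (j : Fin n) : u (x ^ k * p) j = ζ j ^ k * u p j := by
  have hζ : ζ j ≠ 0 := fun h0 => by
    have := h1 j
    rw [h0, norm_zero] at this
    exact zero_ne_one this
  have hE : ∀ k : ℤ, (x ^ k * p)⁻¹ * x * (x ^ k * p) ∈ E := by
    intro k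
    have : (x ^ k * p)⁻¹ * x * (x ^ k * p) = p⁻¹ * x * p := by
      rw [mul_inv_rev]
      have hc : x * x ^ k = x ^ k * x := (Commute.self_zpow x k).eq
      calc p⁻¹ * (x ^ k)⁻¹ * x * (x ^ k * p) = p⁻¹ * (x ^ k)⁻¹ * (x * x ^ k) * p := by group
        _ = p⁻¹ * (x ^ k)⁻¹ * (x ^ k * x) * p := by rw [hc]
        _ = p⁻¹ * x * p := by group
    rw [this]; exact hp
  induction k using Int.induction_on with
  | zero => simp
  | succ k ih =>
    have h2 := h (x ^ (k : ℤ) * p) (hE k) j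
    rw [ih] at h2
    have h3 : x ^ ((k : ℤ) + 1) * p = x * (x ^ (k : ℤ) * p) := by
      rw [zpow_add_one, (Commute.self_zpow x k).symm.eq, mul_assoc]
    rw [h3, h2, zpow_add_one₀ hζ]; ring
  | pred k ih =>
    have h2 := h (x ^ (-(k : ℤ) - 1) * p) (hE _) j
    have h3 : x * (x ^ (-(k : ℤ) - 1) * p) = x ^ (-(k : ℤ)) * p := by
      rw [← mul_assoc]
      congr 1
      rw [zpow_sub_one, ← mul_assoc, (Commute.self_zpow x _).eq]
      group
    rw [h3, ih] at h2
    rw [zpow_sub_one₀ hζ, mul_right_comm, h2]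
    field_simp

theorem main (hD : DataStmt.{u, u}) (hK : KerStmt.{u, 0}) (hC : CoreStmt.{u}) :
    MainStmt.{u} := by
  classical
  intro G _ hG q e he
  obtain ⟨H, _, _, F, hF1, hF2⟩ := hG
  choose K hF using hF1
  obtain ⟨S, hS1, hS2, hS⟩ := hD G q e he
  obtain ⟨κ, hκ⟩ : ∃ κ : ℝ, ∀ s ∈ S, 2 * K s ≤ κ := by
    obtain ⟨κ, hκ⟩ := ((S.image fun s => 2 * K s).finite_toSet).bddAbove
    exact ⟨κ, fun s hs => hκ (Finset.mem_coe.2 (Finset.mem_image_of_mem _ hs))⟩
  obtain ⟨δ, hδ, M, hM⟩ := hS κ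
  have hfin := hF2 ((2 : ℝ) ^ (2 * (3 * M) ^ 2))
  refine ⟨hfin.toFinset, fun x hA hx => hM x ?_⟩
  obtain ⟨E, iE1, iE2, f, f1, f2, f3, f4⟩ := hK G x hA H F K (fun g p => hF g p)
  -- the core
  have hcore : ∀ p, ‖f (x * p) - f p‖ < 3 * M →
      p⁻¹ * x * p ∈ {g | ∃ p, ‖F (p * g) - F p‖ ≤ (2 : ℝ) ^ (2 * (3 * M) ^ 2)} := by
    intro p hp
    by_contra hne
    have h1 := f4 (3 * M) p fun p' hp' => by
      by_contra hlt
      push Not at hlt
      refine hne ⟨p', ?_⟩
      rw [← hp']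
      have : p' * (p'⁻¹ * x * p') = x * p' := by group
      rw [this]
      exact hlt.le
    push_cast at h1
    linarith
  have hDm : Subgroup.zpowers x ≤ Cen x := by
    rw [Subgroup.zpowers_le]; exact self_mem_cen x
  by_cases hemp : ∀ b ∈ hfin.toFinset, ¬ IsConj b x
  · -- the core is empty
    have hno : ∀ p, ¬ ‖f (x * p) - f p‖ < 3 * M := fun p hp => by
      refine hemp (p⁻¹ * x * p) (hfin.mem_toFinset.2 (hcore p hp)) ?_
      rw [isConj_iff]
      exact ⟨p, by group⟩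
    exact ⟨Subgroup.zpowers x, 0, fun _ _ => 1, fun _ _ => 0, E, iE1, iE2, f,
      Subgroup.mem_zpowers x, hDm, coAmen_mono bot_le hA, fun _ _ j => j.elim0, fun j => j.elim0,
      fun d hd => f1 d (hDm hd), f2, fun s hs p => (f3 s p).trans (hκ s hs),
      fun _ _ p hp => absurd hp (hno p), fun p hp => absurd hp (hno p),
      fun p hp => absurd hp (hno p)⟩
  · have hinf : ¬ IsOfFinOrder x := by
      rcases hx with h | h
      · exact h
      · exact absurd h hemp
    obtain ⟨n, ζ, v, c1, c2, c3, c4, c5⟩ := hC G x hinf hA _ S δ hfin hδ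
    have hinj : Function.Injective fun k : ℤ => x ^ k := injective_zpow_iff_not_isOfFinOrder.2 hinf
    -- the exponent
    set ex : G → ℤ := fun g => if h : ∃ k : ℤ, x ^ k = g then h.choose else 0 with hex
    have hexs : ∀ k : ℤ, ex (x ^ k) = k := by
      intro k
      have h : ∃ l : ℤ, x ^ l = x ^ k := ⟨k, rfl⟩
      simp only [hex, dif_pos h]
      exact hinj h.choose_spec
    refine ⟨Subgroup.zpowers x, n, fun g j => ζ j ^ ex g, v, E, iE1, iE2, f,
      Subgroup.mem_zpowers x, hDm, coAmen_mono bot_le hA, fun d _ j => ?_, fun j => ?_,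
      fun d hd => f1 d (hDm hd), f2, fun s hs p => (f3 s p).trans (hκ s hs),
      fun d hd p hp j => ?_, fun p hp => c4 p (hcore p hp), fun p hp s hs hps => ?_⟩
    · rw [norm_zpow, c1, one_zpow]
    · have := hexs 1
      rw [zpow_one] at this
      simp only [this, zpow_one]
      exact c2 j
    · obtain ⟨k, rfl⟩ := Subgroup.mem_zpowers_iff.1 hd
      simp only [hexs]
      exact equi_zpow c1 c3 k p (hcore p hp) j
    · exact c5 p (hcore p hp) s hs (hcore (p * s) hps)

end Vale.Agent.P184.H236
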